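import Vale.Agent.P128.Defs

/-!
# P128: elementary circle calculus for the one component argument
-/

open MeasureTheory Set Metric Filter
open scoped ENNReal Topology Real

noncomputable section

namespace Vale.Agent.P128.OneComp

variable {K : Set ℂ} {u V : ℂ → ℝ} {x : ℂ} {r : ℝ} {t : ℕ → ℝ} {m : ℕ}

theorem tauArc_nonneg (hr : 0 ≤ r) {a b : ℝ} (hab : a ≤ b) : 0 ≤ tauArc u x r a b :=
  intervalIntegral.integral_nonneg hab fun _ _ => mul_nonneg hr (sq_nonneg _)

theorem rhoArc_nonneg (hr : 0 ≤ r) {a b : ℝ} (hab : a ≤ b) : 0 ≤ rhoArc u x r a b :=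
  intervalIntegral.integral_nonneg hab fun _ _ => mul_nonneg hr (sq_nonneg _)

theorem tauC_nonneg (hr : 0 ≤ r) : 0 ≤ tauC u x r := tauArc_nonneg hr Real.two_pi_pos.le

theorem rhoC_nonneg (hr : 0 ≤ r) : 0 ≤ rhoC u x r := rhoArc_nonneg hr Real.two_pi_pos.le

theorem periodic_exp : Function.Periodic (fun θ : ℝ => Complex.exp (θ * Complex.I)) (2 * π) := by
  intro θ
  show Complex.exp (((θ + 2 * π : ℝ) : ℂ) * Complex.I) = _
  push_cast
  rw [add_mul, Complex.exp_periodic]

theorem periodic_dT : Function.Periodic (dT u x r) (2 * π) := fun θ => by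
  have h := periodic_exp θ
  simp only at h
  unfold dT
  rw [periodic_circleMap x r θ, h]

theorem periodic_dR : Function.Periodic (dR u x r) (2 * π) := fun θ => by
  have h := periodic_exp θ
  simp only at h
  unfold dR
  rw [periodic_circleMap x r θ, h]

theorem gap_nonneg (ht : IsPartition K x r t m) {i : ℕ} (hi : i < m) : t i ≤ t (i + 1) :=
  (ht.2.2 i hi).1.1.le

theorem sum_arcs {f : ℝ → ℝ} (hper : Function.Periodic f (2 * π))
    (hint : ∀ a b, IntervalIntegrable f volume a b) (ht : IsPartition K x r t m) :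
    ∑ i ∈ Finset.range m, (∫ θ in (t i)..(t (i + 1)), f θ) = ∫ θ in (0 : ℝ)..2 * π, f θ := by
  rw [intervalIntegral.sum_integral_adjacent_intervals (fun k _ => hint _ _), ht.2.1,
    hper.intervalIntegral_add_eq (t 0) 0, zero_add]

theorem sum_tauArc (hg : GoodRadius K u x r) (ht : IsPartition K x r t m) :
    ∑ i ∈ Finset.range m, tauArc u x r (t i) (t (i + 1)) = tauC u x r :=
  sum_arcs (periodic_dT.comp fun y => r * y ^ 2) (fun a b => (hg.intT a b).const_mul r) ht

theorem sum_rhoArc (hg : GoodRadius K u x r) (ht : IsPartition K x r t m) :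
    ∑ i ∈ Finset.range m, rhoArc u x r (t i) (t (i + 1)) = rhoC u x r :=
  sum_arcs (periodic_dR.comp fun y => r * y ^ 2) (fun a b => (hg.intR a b).const_mul r) ht

/-- Short arcs give a small factor in the monotonicity formula. -/
theorem arcSum_le (hg : GoodRadius K u x r) (ht : IsPartition K x r t m) {κ : ℝ} (hκ : 0 ≤ κ)
    (hgap : ∀ i < m, t (i + 1) - t i ≤ κ * π) :
    arcSum u x r t m ≤ κ / 2 * (tauC u x r + rhoC u x r) := by
  have hπ := Real.pi_pos
  unfold arcSum
  rw [← sum_tauArc hg ht, ← sum_rhoArc hg ht, ← Finset.sum_add_distrib, Finset.mul_sum]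
  refine Finset.sum_le_sum fun i hi => ?_
  rw [Finset.mem_range] at hi
  have ha := tauArc_nonneg (u := u) (x := x) hg.pos.le (gap_nonneg ht hi)
  have hb := rhoArc_nonneg (u := u) (x := x) hg.pos.le (gap_nonneg ht hi)
  have h1 : (t (i + 1) - t i) / π ≤ κ := by rw [div_le_iff₀ hπ]; exact hgap i hi
  have h2 : Real.sqrt (tauArc u x r (t i) (t (i + 1)) * rhoArc u x r (t i) (t (i + 1))) ≤
      (tauArc u x r (t i) (t (i + 1)) + rhoArc u x r (t i) (t (i + 1))) / 2 := by
    rw [Real.sqrt_le_left (by linarith)]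
    nlinarith [sq_nonneg (tauArc u x r (t i) (t (i + 1)) - rhoArc u x r (t i) (t (i + 1)))]
  refine (mul_le_mul h1 h2 (Real.sqrt_nonneg _) hκ).trans_eq ?_
  ring

theorem coneSum_le (hg : GoodRadius K u x r) (ht : IsPartition K x r t m) {κ : ℝ}
    (hgap : ∀ i < m, t (i + 1) - t i ≤ κ * π) :
    ∑ i ∈ Finset.range m, (t (i + 1) - t i) / π * tauArc u x r (t i) (t (i + 1)) ≤
      κ * tauC u x r := by
  rw [← sum_tauArc hg ht, Finset.mul_sum]
  refine Finset.sum_le_sum fun i hi => ?_
  rw [Finset.mem_range] at hi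
  refine mul_le_mul_of_nonneg_right ?_ (tauArc_nonneg hg.pos.le (gap_nonneg ht hi))
  rw [div_le_iff₀ Real.pi_pos]
  exact hgap i hi

/-- Two stream values on a circle force radial energy there. -/
theorem osc_le_rhoC (hV : IsStream K u V) (hg : GoodRadius K u x r) {p q : ℂ}
    (hp : p ∈ sphere x r) (hq : q ∈ sphere x r) :
    3 * (V p - V q) ^ 2 / (8 * π * r) ≤ rhoC u x r := by
  have hr := hg.pos
  obtain ⟨a, ha, hap⟩ : p ∈ circleMap x r '' Ioc 0 (2 * π) := by
    rwa [image_circleMap_Ioc, abs_of_pos hr]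
  obtain ⟨b, hb, hbq⟩ : q ∈ circleMap x r '' Ioc 0 (2 * π) := by
    rwa [image_circleMap_Ioc, abs_of_pos hr]
  set h : ℝ → ℝ := fun θ => V (circleMap x r θ) with hh
  set E := {θ | θ ∈ Ioc (0 : ℝ) (2 * π) ∧ circleMap x r θ ∈ K} with hE
  have hEfin : E.Finite := by
    refine Finite.of_finite_image (f := circleMap x r) (hg.fin.subset ?_) ?_
    · rintro _ ⟨θ, hθ, rfl⟩
      exact ⟨hθ.2, circleMap_mem_sphere x hr.le θ⟩
    · have hinj := injOn_circleMap_of_abs_sub_le (a := 0) (b := 2 * π) (c := x) hr.ne'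
        (by rw [zero_sub, abs_neg, abs_of_pos Real.two_pi_pos])
      rw [uIoc_of_le Real.two_pi_pos.le] at hinj
      exact hinj.mono fun θ hθ => hθ.1
  have hderiv : ∀ θ ∈ Ioc (0 : ℝ) (2 * π) \ E, HasDerivAt h (r * dR u x r θ) θ := by
    intro θ hθ
    have hnK : circleMap x r θ ∉ K := fun hK => hθ.2 ⟨hθ.1, hK⟩
    have h1 := (hV.diff _ hnK).hasFDerivAt.comp_hasDerivAt θ (hasDerivAt_circleMap x r θ)
    rw [hV.fderiv_eq _ hnK] at h1
    refine h1.congr_deriv ?_
    have he : -(Complex.I * (circleMap 0 r θ * Complex.I)) =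
        r • Complex.exp (θ * Complex.I) := by
      rw [circleMap_zero, Complex.real_smul]
      linear_combination (-(r : ℂ) * Complex.exp (θ * Complex.I)) * Complex.I_mul_I
    rw [he, map_smul, smul_eq_mul]
    rfl
  have hae : ∀ᵐ θ ∂volume.restrict (Ioc (0 : ℝ) (2 * π)), |deriv h θ| = r * |dR u x r θ| := by
    rw [ae_restrict_iff' measurableSet_Ioc]
    filter_upwards [measure_eq_zero_iff_ae_notMem.1 (hEfin.measure_zero volume)] with θ hθ hI
    rw [(hderiv θ ⟨hI, hθ⟩).deriv, abs_mul, abs_of_pos hr]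
  have hR2 : IntegrableOn (fun θ => dR u x r θ ^ 2) (Ioc 0 (2 * π)) :=
    (intervalIntegrable_iff_integrableOn_Ioc_of_le Real.two_pi_pos.le).1 (hg.intR _ _)
  have hfin : volume (Ioc (0 : ℝ) (2 * π)) ≠ ⊤ := by
    rw [Real.volume_Ioc]; exact ENNReal.ofReal_ne_top
  have hi : IntegrableOn (deriv h) (Ioc 0 (2 * π)) := by
    refine Integrable.mono' (((integrableOn_const (C := (1 : ℝ)) hfin).add hR2).const_mul r)
      (measurable_deriv h).aestronglyMeasurable ?_
    filter_upwards [hae] with θ hθ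
    simp only [Pi.add_apply, Real.norm_eq_abs, hθ]
    refine mul_le_mul_of_nonneg_left ?_ hr.le
    nlinarith [sq_nonneg (|dR u x r θ| - 1), sq_abs (dR u x r θ)]
  have hsub : uIoc a b ⊆ Ioc 0 (2 * π) := Ioc_subset_Ioc (le_min ha.1.le hb.1.le) (max_le ha.2 hb.2)
  have hcont : Continuous h := hV.cont.comp (continuous_circleMap x r)
  have hftc : (∫ θ in a..b, deriv h θ) = V q - V p := by
    rw [MeasureTheory.integral_eq_of_hasDerivAt_off_countable h (deriv h) hEfin.countable
      hcont.continuousOn (fun θ hθ => ?_)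
      (intervalIntegrable_iff.2 (hi.mono_set hsub)), hh]
    · simp only [hap, hbq]
    · have hθI : θ ∈ Ioc (0 : ℝ) (2 * π) := hsub (Ioo_subset_Ioc_self hθ.1)
      exact (hderiv θ ⟨hθI, hθ.2⟩).differentiableAt.hasDerivAt
  set c := |V p - V q| with hc
  have hc1 : c ≤ ∫ θ in Ioc 0 (2 * π), |deriv h θ| := by
    rw [hc, abs_sub_comm, ← hftc, ← Real.norm_eq_abs]
    refine intervalIntegral.norm_integral_le_integral_norm_uIoc.trans ?_
    simp only [Real.norm_eq_abs]
    exact setIntegral_mono_set hi.abs (Eventually.of_forall fun _ => abs_nonneg _)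
      hsub.eventuallyLE
  rcases (abs_nonneg (V p - V q)).eq_or_lt with h0 | h0
  · have : V p - V q = 0 := abs_eq_zero.1 h0.symm
    rw [this]
    simpa using rhoC_nonneg (u := u) (x := x) hr.le
  -- weighted arithmetic-geometric mean
  have hA : rhoC u x r = r * ∫ θ in Ioc 0 (2 * π), dR u x r θ ^ 2 := by
    unfold rhoC rhoArc
    rw [intervalIntegral.integral_const_mul, intervalIntegral.integral_of_le Real.two_pi_pos.le]
  set s := 4 * π * r / c with hs
  have hs0 : 0 < s := div_pos (by positivity) h0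
  have hc2 : c ≤ r * ((s * (∫ θ in Ioc 0 (2 * π), dR u x r θ ^ 2) + 2 * π / s) / 2) := by
    refine hc1.trans ?_
    have hk : IntegrableOn (fun θ => r / 2 * (s * dR u x r θ ^ 2 + 1 / s)) (Ioc 0 (2 * π)) :=
      ((hR2.const_mul s).add (integrableOn_const hfin)).const_mul _
    refine (integral_mono_ae hi.abs hk ?_).trans_eq ?_
    · filter_upwards [hae] with θ hθ
      rw [hθ]
      have h2 : |dR u x r θ| ≤ (s * dR u x r θ ^ 2 + 1 / s) / 2 := by
        rw [le_div_iff₀ (by norm_num : (0 : ℝ) < 2), ← sq_abs (dR u x r θ)]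
        have h3 := sq_nonneg (s * |dR u x r θ| - 1)
        have h4 : s * |dR u x r θ| ^ 2 + 1 / s - |dR u x r θ| * 2 =
            (s * |dR u x r θ| - 1) ^ 2 / s := by field_simp; ring
        linarith [div_nonneg h3 hs0.le]
      calc r * |dR u x r θ| ≤ r * ((s * dR u x r θ ^ 2 + 1 / s) / 2) :=
            mul_le_mul_of_nonneg_left h2 hr.le
        _ = _ := by ring
    · rw [integral_const_mul, integral_add (hR2.const_mul s) (integrableOn_const hfin),
        integral_const_mul, setIntegral_const, smul_eq_mul, Real.volume_real_Ioc_of_le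
          Real.two_pi_pos.le]
      ring
  have e1 : r * ((s * (∫ θ in Ioc 0 (2 * π), dR u x r θ ^ 2) + 2 * π / s) / 2) =
      2 * π * r / c * rhoC u x r + c / 4 := by
    rw [hA, hs]; field_simp; ring
  rw [e1] at hc2
  rw [← sq_abs, ← hc, div_le_iff₀ (by positivity)]
  have h5 : 3 * c / 4 ≤ 2 * π * r / c * rhoC u x r := by linarith
  rw [div_mul_eq_mul_div, div_le_div_iff₀ (by norm_num) h0] at h5
  linarith

end Vale.Agent.P128.OneComp
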