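import Mathlib

/-!
# P128: scale induction

Growth of a primitive from a lower bound on its derivative off a small set of radii.
-/

open MeasureTheory Set Filter
open scoped ENNReal Topology

noncomputable section

namespace Vale.Agent.P128.OneComp

/-- If `g ≥ 0` is at least `c` where `Q` holds, and `Q` fails on measure at most `R / 100` in
`[R, 2R]`, the integral over `[R, 5R/4]` is at least `24 c R / 100`. -/
theorem mass_step {g : ℝ → ℝ} {Q : ℝ → Prop} {R c : ℝ} (hR : 0 < R)
    (hbad : volume {r | r ∈ Icc R (2 * R) ∧ ¬Q r} ≤ ENNReal.ofReal (R / 100))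
    (hint : IntervalIntegrable g volume R (5 / 4 * R))
    (hg : ∀ r ∈ Icc R (5 / 4 * R), 0 ≤ g r)
    (hc : 0 ≤ c) (hQ : ∀ r ∈ Icc R (5 / 4 * R), Q r → c ≤ g r) :
    c * (24 / 100 * R) ≤ ∫ r in R..(5 / 4 * R), g r := by
  set B := toMeasurable volume {r | r ∈ Icc R (2 * R) ∧ ¬Q r} with hBdef
  set S := Icc R (5 / 4 * R) \ B with hSdef
  have hle : R ≤ 5 / 4 * R := by linarith
  have hS : MeasurableSet S := measurableSet_Icc.diff (measurableSet_toMeasurable _ _)
  have hB : volume B ≤ ENNReal.ofReal (R / 100) := by rw [hBdef, measure_toMeasurable]; exact hbad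
  have hSfin : volume S ≠ ⊤ :=
    ne_top_of_le_ne_top (by rw [Real.volume_Icc]; exact ENNReal.ofReal_ne_top)
      (measure_mono (show S ⊆ Icc R (5 / 4 * R) from Set.sdiff_subset))
  have hvol : 24 / 100 * R ≤ (volume S).toReal := by
    have h1 : volume (Icc R (5 / 4 * R)) ≤ volume S + volume B :=
      le_trans (measure_mono (fun r hr => by
        by_cases hrB : r ∈ B
        · exact Or.inr hrB
        · exact Or.inl ⟨hr, hrB⟩)) (measure_union_le S B)
    have h2 := ENNReal.toReal_mono (ENNReal.add_ne_top.2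
      ⟨hSfin, ne_top_of_le_ne_top ENNReal.ofReal_ne_top hB⟩) h1
    rw [Real.volume_Icc, ENNReal.toReal_ofReal (by linarith),
      ENNReal.toReal_add hSfin (ne_top_of_le_ne_top ENNReal.ofReal_ne_top hB)] at h2
    have h3 : (volume B).toReal ≤ R / 100 := ENNReal.toReal_le_of_le_ofReal (by linarith) hB
    linarith
  have hintI : IntegrableOn g (Icc R (5 / 4 * R)) :=
    (intervalIntegrable_iff_integrableOn_Icc_of_le hle).1 hint
  have hlow : c * (volume S).toReal ≤ ∫ r in S, g r := by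
    have := setIntegral_mono_on (μ := volume) (f := fun _ => c) (g := g)
      (integrableOn_const hSfin) (hintI.mono_set Set.sdiff_subset) hS (fun r hr => by
        refine hQ r hr.1 ?_
        by_contra hn
        exact hr.2 (subset_toMeasurable _ _ ⟨⟨hr.1.1, by linarith [hr.1.2]⟩, hn⟩))
    rwa [setIntegral_const, smul_eq_mul, measureReal_def, mul_comm] at this
  rw [intervalIntegral.integral_of_le hle, ← integral_Icc_eq_integral_Ioc]
  refine le_trans ((mul_le_mul_of_nonneg_left hvol hc).trans hlow) ?_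
  exact setIntegral_mono_set hintI
    (ae_restrict_of_forall_mem measurableSet_Icc hg) Set.sdiff_subset.eventuallyLE

/-- A quantity multiplied by `q` at each step while above `K w R` and bounded by `C w' R` is at
most `K w R`, when the bound grows slower than `q`. -/
theorem no_growth {F : ℝ → ℝ} {K C R₀ q p lam : ℝ} (hlam : 1 ≤ lam) (hR₀ : 0 < R₀) (hK : 0 ≤ K)
    {w : ℝ} (hwp : lam ^ w ≤ q) (hpq : lam ^ p < q)
    (hbound : ∀ R, R₀ ≤ R → F R ≤ C * R ^ p)
    (hstep : ∀ R, R₀ ≤ R → K * R ^ w < F R → q * F R ≤ F (lam * R)) :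
    ∀ R, R₀ ≤ R → F R ≤ K * R ^ w := by
  intro R hR
  by_contra hcon
  simp only [not_le] at hcon
  have hRpos : 0 < R := lt_of_lt_of_le hR₀ hR
  have hlam0 : 0 < lam := by linarith
  have hF0 : 0 < F R := lt_of_le_of_lt (mul_nonneg hK (Real.rpow_nonneg hRpos.le _)) hcon
  have hq0 : 0 < q := lt_of_lt_of_le (Real.rpow_pos_of_pos hlam0 w) hwp
  have key : ∀ j : ℕ, q ^ j * F R ≤ F (lam ^ j * R) ∧
      K * (lam ^ j * R) ^ w < F (lam ^ j * R) := by
    intro j
    induction j with
    | zero => simpa using hcon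
    | succ j ih =>
      obtain ⟨ih1, ih2⟩ := ih
      have hge : R₀ ≤ lam ^ j * R :=
        hR.trans (le_mul_of_one_le_left hRpos.le (one_le_pow₀ hlam))
      have hs := hstep _ hge ih2
      have he : lam ^ (j + 1) * R = lam * (lam ^ j * R) := by ring
      rw [he]
      refine ⟨?_, ?_⟩
      · calc q ^ (j + 1) * F R = q * (q ^ j * F R) := by ring
          _ ≤ q * F (lam ^ j * R) := mul_le_mul_of_nonneg_left ih1 hq0.le
          _ ≤ _ := hs
      · refine lt_of_lt_of_le ?_ hs
        rw [Real.mul_rpow hlam0.le (by positivity)]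
        calc K * (lam ^ w * (lam ^ j * R) ^ w) = lam ^ w * (K * (lam ^ j * R) ^ w) := by ring
          _ ≤ q * (K * (lam ^ j * R) ^ w) :=
            mul_le_mul_of_nonneg_right hwp (mul_nonneg hK (Real.rpow_nonneg (by positivity) _))
          _ < q * F (lam ^ j * R) := mul_lt_mul_of_pos_left ih2 hq0
  obtain ⟨j, hj⟩ := pow_unbounded_of_one_lt (C * R ^ p / F R)
    ((one_lt_div (Real.rpow_pos_of_pos hlam0 p)).2 hpq)
  have hlp : 0 < (lam ^ p) ^ j := pow_pos (Real.rpow_pos_of_pos hlam0 p) j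
  have hb := hbound (lam ^ j * R) (hR.trans (le_mul_of_one_le_left hRpos.le (one_le_pow₀ hlam)))
  rw [Real.mul_rpow (by positivity) hRpos.le,
    show (lam ^ j) ^ p = (lam ^ p) ^ j from (Real.rpow_pow_comm hlam0.le p j).symm] at hb
  have h3 := le_trans (key j).1 hb
  rw [div_pow, div_lt_div_iff₀ hF0 hlp] at hj
  linarith

theorem rpow_two_thirds_lt {q : ℝ} (hq : 0 ≤ q) (h : (25 : ℝ) / 16 < q ^ 3) :
    (5 / 4 : ℝ) ^ ((2 : ℝ) / 3) < q := by
  by_contra hcon
  simp only [not_lt] at hcon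
  have h3 : q ^ 3 ≤ ((5 / 4 : ℝ) ^ ((2 : ℝ) / 3)) ^ 3 := pow_le_pow_left₀ hq hcon 3
  rw [← Real.rpow_natCast ((5 / 4 : ℝ) ^ ((2 : ℝ) / 3)) 3, ← Real.rpow_mul (by norm_num)] at h3
  norm_num at h3
  linarith

end Vale.Agent.P128.OneComp
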